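import Mathlib

/-!
# Stretches of a walk against one clock
-/

set_option autoImplicit false

namespace Vale.Agent.P235.ST.H825

open SimpleGraph

/-- the length of a walk for the heights `U` -/
noncomputable def cost {V : Type} {G : SimpleGraph V} (U : V → ℝ) {x y : V} (w : G.Walk x y) : ℝ :=
  (w.darts.map fun e => |U e.fst - U e.snd|).sum

section
variable {V : Type} {G : SimpleGraph V} (U : V → ℝ)

theorem cost_nil (x : V) : cost U (Walk.nil : G.Walk x x) = 0 := by simp [cost]

theorem cost_cons {x y z : V} (h : G.Adj x y) (w : G.Walk y z) :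
    cost U (Walk.cons h w) = |U x - U y| + cost U w := by simp [cost]

theorem cost_append {x y z : V} (w : G.Walk x y) (w' : G.Walk y z) :
    cost U (w.append w') = cost U w + cost U w' := by
  simp [cost, Walk.darts_append]

theorem cost_nonneg {x y : V} (w : G.Walk x y) : 0 ≤ cost U w := by
  unfold cost
  refine List.sum_nonneg fun a ha => ?_
  obtain ⟨e, _, rfl⟩ := List.mem_map.1 ha
  exact abs_nonneg _

theorem abs_le_cost {x y : V} (w : G.Walk x y) : |U x - U y| ≤ cost U w := by
  induction w with
  | nil => simp [cost]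
  | cons h w ih =>
    rename_i a b c
    rw [cost_cons]
    calc |U a - U c| ≤ |U a - U b| + |U b - U c| := abs_sub_le _ _ _
      _ ≤ _ := by linarith

end

/-- the first stop -/
theorem split {V : Type} {G : SimpleGraph V} (P : V → Prop) {x y : V} (g : G.Walk x y)
    (hx : ¬ P x) (h : ∃ v ∈ g.support, P v) :
    ∃ (m : V) (w1 : G.Walk x m) (w2 : G.Walk m y), g = w1.append w2 ∧ P m ∧
      ∀ v ∈ w1.support, v ≠ m → ¬ P v := by
  induction g with
  | nil =>
    obtain ⟨v, hv, hP⟩ := h
    simp only [Walk.support_nil, List.mem_singleton] at hv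
    exact absurd (hv ▸ hP) hx
  | cons e g ih =>
    rename_i a b c
    by_cases hb : P b
    · refine ⟨b, Walk.cons e Walk.nil, g, by simp, hb, ?_⟩
      intro v hv hvb
      simp only [Walk.support_cons, Walk.support_nil, List.mem_cons, List.not_mem_nil,
        or_false] at hv
      rcases hv with rfl | rfl
      · exact hx
      · exact absurd rfl hvb
    · have h' : ∃ v ∈ g.support, P v := by
        obtain ⟨v, hv, hP⟩ := h
        rw [Walk.support_cons, List.mem_cons] at hv
        rcases hv with rfl | hv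
        · exact absurd hP hx
        · exact ⟨v, hv, hP⟩
      obtain ⟨m, w1, w2, h1, h2, h3⟩ := ih hb h'
      refine ⟨m, Walk.cons e w1, w2, by rw [h1]; simp, h2, ?_⟩
      intro v hv hvm
      rw [Walk.support_cons, List.mem_cons] at hv
      rcases hv with rfl | hv
      · exact hx
      · exact h3 v hv hvm

theorem beta_num {A t C κ e1 η a b : ℝ} (h4 : A - κ * t - 5 * e1 * t ≤ (1 + η / 2) * C)
    (hC : 0 ≤ C) (hη : 0 < η) (hη1 : η ≤ 1) (hdev : b * t ≤ A) (ht : 0 < t) (hκ : 0 < κ)
    (he1 : 0 ≤ e1) (hn3 : a + 2 * κ + 10 * e1 ≤ η * b) : A + a * t ≤ (1 + 2 * η) * C := by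
  have h5 : (1 + η) * (1 + η / 2) ≤ (1 + 2 * η) := by
    have : η * η ≤ 1 * η := mul_le_mul_of_nonneg_right hη1 hη.le
    linarith
  have h6 : (1 + η) * (A - κ * t - 5 * e1 * t) ≤ (1 + 2 * η) * C := by
    calc (1 + η) * (A - κ * t - 5 * e1 * t) ≤ (1 + η) * ((1 + η / 2) * C) :=
          mul_le_mul_of_nonneg_left h4 (by linarith)
      _ = ((1 + η) * (1 + η / 2)) * C := by ring
      _ ≤ _ := mul_le_mul_of_nonneg_right h5 hC
  refine le_trans ?_ h6
  have h7 : η * (b * t) ≤ η * A := mul_le_mul_of_nonneg_left hdev hη.le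
  have h8 : (a + 2 * κ + 10 * e1) * t ≤ η * b * t := mul_le_mul_of_nonneg_right hn3 ht.le
  have h9 : η * (κ * t + 5 * e1 * t) ≤ 1 * (κ * t + 5 * e1 * t) :=
    mul_le_mul_of_nonneg_right hη1 (by positivity)
  have h10 : (1 + η) * (A - κ * t - 5 * e1 * t) =
      A + η * A - (κ * t + 5 * e1 * t) - η * (κ * t + 5 * e1 * t) := by ring
  rw [h10]
  linarith

theorem alpha_num {A t C κ K c2 η a b dpm dzy dzp dmy r : ℝ} (hη : 0 < η) (hC : 0 ≤ C)
    (ht : dzy = t) (ht0 : 0 < t) (hA : A < b * t) (h1 : dmy = A) (h2 : dzy ≤ dzp + (dpm + dmy))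
    (h3 : dzp ≤ κ * t) (hK : 0 ≤ K) (hr : r ≤ t) (hκb : κ + b ≤ 1 / 10) (hK1 : K ≤ 1 / 2)
    (hc2 : 0 < c2) (hn2 : a + b ≤ 9 / 10 * c2) (hLB : K * r ≤ dpm → c2 * dpm ≤ C) :
    A + a * t ≤ (1 + 2 * η) * C := by
  have h5 : 9 / 10 * t ≤ dpm := by
    have : (κ + b) * t ≤ 1 / 10 * t := mul_le_mul_of_nonneg_right hκb ht0.le
    linarith
  have h6 : K * r ≤ dpm := by
    have h7 : K * r ≤ K * t := mul_le_mul_of_nonneg_left hr hK
    have h8 : K * t ≤ 1 / 2 * t := mul_le_mul_of_nonneg_right hK1 ht0.le
    linarith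
  have h7 := hLB h6
  have h8 : c2 * (9 / 10 * t) ≤ c2 * dpm := mul_le_mul_of_nonneg_left h5 hc2.le
  have h9 : (a + b) * t ≤ 9 / 10 * c2 * t := mul_le_mul_of_nonneg_right hn2 ht0.le
  have h10 : 0 ≤ 2 * η * C := by positivity
  linarith

theorem v_ineq {V : Type} {G : SimpleGraph V} {u : V → ℤ} {U rho : V → ℝ} {κ K c2 e1 η : ℝ}
    (hκ : 0 < κ) (he1 : 0 ≤ e1) (hn1 : 2 * e1 ≤ η / 2 * κ * c2) (hη : 0 < η) (hK2 : 2 * K ≤ κ)
    (hU : ∀ x, |U x - u x| ≤ 2 * e1 * rho x) (hρ0 : ∀ x, 0 ≤ rho x)
    (hρ : ∀ x y, |rho x - rho y| ≤ (G.dist x y : ℝ) / κ)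
    (hLB : ∀ (x y : V) (w : G.Walk x y), K * rho x ≤ G.dist x y →
      c2 * (G.dist x y : ℝ) ≤ cost U w) (x y : V) (w : G.Walk x y) :
    |(u x : ℝ) - u y| - 5 * e1 * rho x ≤ (1 + η / 2) * cost U w := by
  have h0 := cost_nonneg U w
  have h1 := abs_le_cost U w
  have h2 := hU x
  have h3 := hU y
  have h4 := abs_le.1 (hρ x y)
  have h5 : |(u x : ℝ) - u y| ≤ |U x - U y| + |U x - u x| + |U y - u y| := by
    have e1 := abs_sub_le (u x : ℝ) (U x) (u y)
    have e2 := abs_sub_le (U x) (U y) (u y : ℝ)
    rw [abs_sub_comm (u x : ℝ) (U x)] at e1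
    linarith
  have h6 : rho y ≤ rho x + (G.dist x y : ℝ) / κ := by linarith [h4.1, h4.2]
  have h7 : |(u x : ℝ) - u y| ≤ cost U w + 4 * e1 * rho x +
      2 * e1 * ((G.dist x y : ℝ) / κ) := by
    have := mul_le_mul_of_nonneg_left h6 (by linarith : (0 : ℝ) ≤ 2 * e1)
    linarith
  have h8 : 0 ≤ e1 * rho x := mul_nonneg he1 (hρ0 x)
  by_cases hd : K * rho x ≤ G.dist x y
  · have h8 := hLB x y w hd
    have h9 : 2 * e1 * ((G.dist x y : ℝ) / κ) ≤ η / 2 * cost U w := by
      have hdn : (0 : ℝ) ≤ (G.dist x y : ℝ) / κ := by positivity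
      calc 2 * e1 * ((G.dist x y : ℝ) / κ) ≤ (η / 2 * κ * c2) * ((G.dist x y : ℝ) / κ) :=
            mul_le_mul_of_nonneg_right hn1 hdn
        _ = η / 2 * (c2 * G.dist x y) := by field_simp
        _ ≤ η / 2 * cost U w := mul_le_mul_of_nonneg_left h8 (by linarith)
    linarith
  · push Not at hd
    have h9 : 2 * e1 * ((G.dist x y : ℝ) / κ) ≤ e1 * rho x := by
      have : (G.dist x y : ℝ) / κ ≤ rho x / 2 := by
        rw [div_le_iff₀ hκ]
        have := mul_le_mul_of_nonneg_right hK2 (hρ0 x)
        linarith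
      calc 2 * e1 * ((G.dist x y : ℝ) / κ) ≤ 2 * e1 * (rho x / 2) :=
            mul_le_mul_of_nonneg_left this (by linarith)
        _ = e1 * rho x := by ring
    have : 0 ≤ η / 2 * cost U w := mul_nonneg (by linarith) h0
    linarith

theorem height_le {V : Type} {G : SimpleGraph V} (hc : G.Connected) {u : V → ℤ}
    (step : ∀ x y, G.Adj x y → |u x - u y| = 1) (x y : V) : |(u x : ℝ) - u y| ≤ G.dist x y := by
  obtain ⟨w, hw⟩ := hc.exists_walk_length_eq_dist x y
  rw [← hw]
  clear hw
  induction w with
  | nil => simp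
  | cons e w ih =>
    rename_i p q r
    have h1 : |(u p : ℝ) - u q| = 1 := by exact_mod_cast step p q e
    rw [Walk.length_cons]
    push_cast
    calc |(u p : ℝ) - u r| ≤ |(u p : ℝ) - u q| + |(u q : ℝ) - u r| := abs_sub_le _ _ _
      _ ≤ _ := by linarith

theorem step_num {Up Ux up ux rx κ e1 η c2 : ℝ} (hκ : 0 < κ) (hη : 0 < η) (hη1 : η ≤ 1)
    (he1 : 0 ≤ e1) (hc21 : c2 ≤ 1) (hn1 : 2 * e1 ≤ η / 2 * κ * c2) (h3 : Up = up)
    (h4 : |Ux - ux| ≤ 2 * e1 * rx) (h5 : rx ≤ 1 / κ) (h6 : |up - ux| = 1) :
    1 ≤ (1 + 2 * η) * |Up - Ux| := by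
  have h7 : 2 * e1 * rx ≤ η / 2 := by
    calc 2 * e1 * rx ≤ 2 * e1 * (1 / κ) := mul_le_mul_of_nonneg_left h5 (by linarith)
      _ ≤ (η / 2 * κ * c2) * (1 / κ) := mul_le_mul_of_nonneg_right hn1 (by positivity)
      _ = η / 2 * c2 := by field_simp
      _ ≤ η / 2 * 1 := mul_le_mul_of_nonneg_left hc21 (by linarith)
      _ = η / 2 := by ring
  have h8 : 1 - η / 2 ≤ |Up - Ux| := by
    have h9 : |up - ux| ≤ |Up - Ux| + |Ux - ux| := by
      rw [h3]
      exact abs_sub_le _ _ _
    linarith
  have h9 : (1 + 2 * η) * (1 - η / 2) ≤ (1 + 2 * η) * |Up - Ux| :=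
    mul_le_mul_of_nonneg_left h8 (by linarith)
  have h10 : η * η ≤ 1 * η := mul_le_mul_of_nonneg_right hη1 hη.le
  have h11 : (1 + 2 * η) * (1 - η / 2) = 1 + 3 / 2 * η - η * η := by ring
  linarith

theorem core {V : Type} (G : SimpleGraph V) (hc : G.Connected) (u : V → ℤ) (idx : V → ℕ)
    (L : ℕ → Set V) (step : ∀ x y, G.Adj x y → |u x - u y| = 1)
    (low : ∀ k, ∀ z ∈ L k, idx z ≤ k) (mem : ∀ p, p ∈ L (idx p))
    (line : ∀ k, ∀ x ∈ L k, ∀ y ∈ L k, (G.dist x y : ℤ) = |u x - u y|)
    (sep : ∀ (p a b : V) (w : G.Walk a b), idx a ≤ idx p → idx p ≤ idx b →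
      ∃ z ∈ w.support, z ∈ L (idx p))
    (U rho : V → ℝ) {κ K c2 e1 η a b τ : ℝ}
    (hκ : 0 < κ) (hc2 : 0 < c2) (hc21 : c2 ≤ 1) (he1 : 0 ≤ e1) (hn1 : 2 * e1 ≤ η / 2 * κ * c2)
    (hη : 0 < η) (hη1 : η ≤ 1) (hK : 0 ≤ K) (hK2 : 2 * K ≤ κ) (hκb : κ + b ≤ 1 / 10)
    (ha : 0 ≤ a) (hb : 0 < b) (hκlb : κ < b) (hn2 : a + b ≤ 9 / 10 * c2)
    (hn3 : a + 2 * κ + 10 * e1 ≤ η * b) (hτ : 0 ≤ τ)
    (hU : ∀ x, |U x - u x| ≤ 2 * e1 * rho x) (hρ0 : ∀ x, 0 ≤ rho x)
    (hρ : ∀ x y, |rho x - rho y| ≤ (G.dist x y : ℝ) / κ)
    (hLB : ∀ (x y : V) (w : G.Walk x y), K * rho x ≤ G.dist x y →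
      c2 * (G.dist x y : ℝ) ≤ cost U w)
    (S : Set V) (D : V → ℝ) (lip : ∀ x ∈ S, ∀ y ∈ S, G.Adj x y → D y - D x ≤ 1)
    (wit : ∀ p ∈ S, 0 < rho p → ∃ z y, rho p ≤ G.dist z y ∧
      (G.dist p z : ℝ) ≤ κ * G.dist z y ∧ (G.dist z y : ℝ) ≤ τ ∧ u z = u y ∧ idx z ≤ idx y ∧
      ∀ q ∈ S, idx q ≤ idx y → D q - D p ≤ |(u q : ℝ) - u z| + a * G.dist z y) :
    ∀ (p q : V) (g : G.Walk p q), (∀ v ∈ g.support, v ∈ S) →
      D q - D p ≤ (1 + 2 * η) * cost U g + (a + b) * τ := by
  have hud := height_le hc step
  have tri : ∀ x y z : V, (G.dist x z : ℝ) ≤ G.dist x y + G.dist y z := by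
    intro x y z
    exact_mod_cast hc.dist_triangle
  have hV := v_ineq hκ he1 hn1 hη hK2 hU hρ0 hρ hLB
  have main : ∀ (n : ℕ) (p q : V) (g : G.Walk p q), g.length ≤ n → (∀ v ∈ g.support, v ∈ S) →
      D q - D p ≤ (1 + 2 * η) * cost U g + (a + b) * τ := by
    intro n
    induction n with
    | zero =>
      intro p q g hg _
      have h0 : g.length = 0 := by omega
      have hpq := Walk.eq_of_length_eq_zero h0
      subst hpq
      have h1 := cost_nonneg U g
      have h2 : 0 ≤ (1 + 2 * η) * cost U g := mul_nonneg (by linarith) h1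
      have h3 : 0 ≤ (a + b) * τ := mul_nonneg (by linarith) hτ
      linarith
    | succ n ih =>
      intro p q g hg hS
      by_cases hrp : 0 < rho p
      · obtain ⟨z, y, w1, w2, w3, w4, w5, w6⟩ := wit p (hS p g.start_mem_support) hrp
        set t : ℝ := (G.dist z y : ℝ) with ht
        have ht0 : 0 < t := lt_of_lt_of_le hrp w1
        have hpz : |(u p : ℝ) - u z| ≤ κ * t := (hud p z).trans w2
        -- `p` is left of the line of `y` and not on it
        have hline : ∀ m, m ∈ L (idx y) → (G.dist m y : ℝ) = |(u m : ℝ) - u z| := by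
          intro m hm
          have h1 := line (idx y) m hm y (mem y)
          have h2 : (G.dist m y : ℝ) = |(u m : ℝ) - u y| := by exact_mod_cast h1
          rw [h2, w4]
        have hnp : p ∉ L (idx y) := by
          intro hp
          have h1 := hline p hp
          have h2 := tri z p y
          rw [SimpleGraph.dist_comm] at h2
          have h3 : (G.dist z p : ℝ) = G.dist p z := by rw [SimpleGraph.dist_comm]
          have h4 : (G.dist z y : ℝ) ≤ 2 * κ * t := by
            have h5 := tri z p y
            rw [h3, h1] at h5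
            linarith
          nlinarith
        have hip : idx p ≤ idx y := by
          by_contra hcon
          push Not at hcon
          obtain ⟨w, hw⟩ := hc.exists_walk_length_eq_dist z p
          obtain ⟨m, hm1, hm2⟩ := sep y z p w w5 hcon.le
          have h1 := hline m hm2
          have h2 : (G.dist z m : ℝ) ≤ κ * t := by
            have h3 : G.dist z m ≤ w.length := by
              classical
              exact (SimpleGraph.dist_le (w.takeUntil m hm1)).trans (w.length_takeUntil_le_length hm1)
            have h4 : (G.dist z m : ℝ) ≤ G.dist z p := by rw [← hw]; exact_mod_cast h3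
            have h5 : (G.dist z p : ℝ) = G.dist p z := by rw [SimpleGraph.dist_comm]
            linarith
          have h3 := tri z m y
          have h4 := hud m z
          have h5 : (G.dist m z : ℝ) = G.dist z m := by rw [SimpleGraph.dist_comm]
          have h6 : t ≤ 2 * (κ * t) := by linarith
          nlinarith
        -- the stop
        let P : V → Prop := fun v => v ∈ L (idx y) ∨ b * t ≤ |(u v : ℝ) - u z|
        have hPp : ¬ P p := by
          rintro (h | h)
          · exact hnp h
          · nlinarith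
        by_cases hex : ∃ v ∈ g.support, P v
        · obtain ⟨m, v1, v2, hg1, hPm, hint⟩ := split P g hPp hex
          have hmS : m ∈ S := hS m (by
            rw [hg1, Walk.mem_support_append_iff]
            exact Or.inl v1.end_mem_support)
          have him : idx m ≤ idx y := by
            by_contra hcon
            push Not at hcon
            obtain ⟨x, hx1, hx2⟩ := sep y p m v1 hip hcon.le
            by_cases hxm : x = m
            · rw [hxm] at hx2
              exact absurd (low _ m hx2) (by omega)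
            · exact hint x hx1 hxm (Or.inl hx2)
          have hgain := w6 m hmS him
          have hpm : p ≠ m := by
            intro h
            rw [← h] at hPm
            exact hPp hPm
          have hl1 : 1 ≤ v1.length := by
            rcases Nat.eq_zero_or_pos v1.length with h | h
            · exact absurd (Walk.eq_of_length_eq_zero h) hpm
            · exact h
          have hlen : v2.length ≤ n := by
            have : g.length = v1.length + v2.length := by rw [hg1, Walk.length_append]
            omega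
          have hrest := ih m q v2 hlen (fun v hv => hS v (by
            rw [hg1, Walk.mem_support_append_iff]
            exact Or.inr hv))
          have hcost : cost U g = cost U v1 + cost U v2 := by rw [hg1, cost_append]
          suffices hst : D m - D p ≤ (1 + 2 * η) * cost U v1 by
            rw [hcost]
            linarith
          refine hgain.trans ?_
          have hv0 := cost_nonneg U v1
          by_cases hdev : b * t ≤ |(u m : ℝ) - u z|
          · -- (beta)
            have h1 := hV p m v1
            have h2 : |(u m : ℝ) - u z| - κ * t ≤ |(u p : ℝ) - u m| := by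
              have h3 := abs_sub_le (u m : ℝ) (u p) (u z)
              rw [abs_sub_comm (u p : ℝ) (u m)]
              linarith
            have h3 : 5 * e1 * rho p ≤ 5 * e1 * t := mul_le_mul_of_nonneg_left w1 (by linarith)
            exact beta_num (by linarith) hv0 hη hη1 hdev ht0 hκ he1 hn3
          · -- (alpha)
            push Not at hdev
            have hmL : m ∈ L (idx y) := by
              rcases hPm with h | h
              · exact h
              · exact absurd h (not_le.2 hdev)
            have h1 := hline m hmL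
            have h2 := tri z p y
            have h3 := tri p m y
            have h4 : (G.dist z p : ℝ) = G.dist p z := by rw [SimpleGraph.dist_comm]
            refine alpha_num hη hv0 ht.symm ht0 hdev h1 (by linarith) (h4.le.trans w2) hK w1 hκb
              (by linarith) hc2 hn2 fun h => hLB p m v1 h
        · -- the last stretch
          push Not at hex
          have hiq : idx q ≤ idx y := by
            by_contra hcon
            push Not at hcon
            obtain ⟨x, hx1, hx2⟩ := sep y p q g hip hcon.le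
            exact hex x hx1 (Or.inl hx2)
          have hq := hex q g.end_mem_support
          have hq2 : |(u q : ℝ) - u z| < b * t := by
            by_contra hcon
            push Not at hcon
            exact hq (Or.inr hcon)
          have hgain := w6 q (hS q g.end_mem_support) hiq
          have h1 : (a + b) * t ≤ (a + b) * τ := mul_le_mul_of_nonneg_left w3 (by linarith)
          have h2 : 0 ≤ (1 + 2 * η) * cost U g := mul_nonneg (by linarith) (cost_nonneg U g)
          linarith
      · -- one step
        have hr0 : rho p = 0 := le_antisymm (not_lt.1 hrp) (hρ0 p)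
        cases g with
        | nil =>
          have h3 : 0 ≤ (a + b) * τ := mul_nonneg (by linarith) hτ
          rw [cost_nil]
          linarith
        | cons e g =>
          rename_i x
          have hpS : p ∈ S := hS p (by simp)
          have hxS : x ∈ S := hS x (by simp)
          have hrest := ih x q g (by
            rw [Walk.length_cons] at hg
            omega) (fun v hv => hS v (by
              rw [Walk.support_cons]
              exact List.mem_cons_of_mem _ hv))
          have h1 := lip p hpS x hxS e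
          rw [cost_cons]
          have h2 := hU p
          rw [hr0, mul_zero] at h2
          have h3 : U p = u p := by
            have := abs_nonpos_iff.1 h2
            linarith
          have h4 := hU x
          have hd1 : (G.dist p x : ℝ) = 1 := by
            exact_mod_cast SimpleGraph.dist_eq_one_iff_adj.2 e
          have h5 : rho x ≤ 1 / κ := by
            have := abs_le.1 (hρ p x)
            rw [hr0, hd1] at this
            linarith [this.1]
          have h6 : |(u p : ℝ) - u x| = 1 := by exact_mod_cast step p x e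
          have h9 := step_num hκ hη hη1 he1 hc21 hn1 h3 h4 h5 h6
          linarith
  intro p q g hS
  exact main g.length p q g le_rfl hS

end Vale.Agent.P235.ST.H825
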