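import Vale.Agent.P235.ST.H825.CutsAux
import Vale.Agent.P235.R2.H582.KprAll

/-! P235, vortices (helper130, row V0): random partitions of the components of `G - X`. -/

namespace Vale.Agent.P235.ST.H825

open SimpleGraph Vale.Agent.P235 Vale.Agent.P235.Kpr

/-- components with one vertex are allowed -/
theorem cuts' {V : Type} [Finite V] {G : SimpleGraph V} {ℓ : Sym2 V → ℝ}
    (hc : G.Connected) (hℓ : ∀ e ∈ G.edgeSet, 0 < ℓ e) {X : Set V}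
    (hp : ∀ u ∉ X, (∀ a ∈ compSet G X u, ∀ b ∈ compSet G X u, a = b) ∨
      ∃ σ : Equiv.Perm (G.induce (compSet G X u)).Dart, PlaneMap (G.induce (compSet G X u)) σ)
    {Δ ε : ℝ} (hΔ : 0 < Δ) (hε : 0 < ε) :
    ∃ (Ω : Type) (_ : Fintype Ω) (_ : Nonempty Ω) (c : Ω → V → V),
      (∀ ω u v, u ∉ X → v ∉ X → ReachOff G X u v → c ω u = c ω v → pathDist G ℓ u v ≤ Δ) ∧
      ∀ u v, u ∉ X → v ∉ X → G.Adj u v → (({ω | c ω u ≠ c ω v}.ncard : ℕ) : ℝ) ≤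
        (156 * ℓ s(u, v) / Δ + ε) * Fintype.card Ω :=
  cuts_of kpr hc hℓ hp hΔ hε

/-- the literal of #25447 -/
theorem cuts {V : Type} [Finite V] {G : SimpleGraph V} {ℓ : Sym2 V → ℝ}
    (hc : G.Connected) (hℓ : ∀ e ∈ G.edgeSet, 0 < ℓ e) {X : Set V}
    (hp : ∀ u ∉ X, ∃ σ : Equiv.Perm (G.induce (compSet G X u)).Dart,
      PlaneMap (G.induce (compSet G X u)) σ)
    {Δ ε : ℝ} (hΔ : 0 < Δ) (hε : 0 < ε) :
    ∃ (Ω : Type) (_ : Fintype Ω) (_ : Nonempty Ω) (c : Ω → V → V),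
      (∀ ω u v, u ∉ X → v ∉ X → ReachOff G X u v → c ω u = c ω v → pathDist G ℓ u v ≤ Δ) ∧
      ∀ u v, u ∉ X → v ∉ X → G.Adj u v → (({ω | c ω u ≠ c ω v}.ncard : ℕ) : ℝ) ≤
        (156 * ℓ s(u, v) / Δ + ε) * Fintype.card Ω :=
  cuts_of kpr hc hℓ (fun u hu => Or.inr (hp u hu)) hΔ hε

end Vale.Agent.P235.ST.H825
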