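import Vale.Agent.P235.R2.H582.KprSpec

/-! P235, vortices (helper130, row V0): random partitions of all components of `G - X` at once. -/

namespace Vale.Agent.P235.ST.H825

open SimpleGraph Vale.Agent.P235 Vale.Agent.P235.Kpr

/-- the partition of one piece -/
theorem piece_cuts (kpr : RowKPR) {V : Type} [Finite V] {G : SimpleGraph V} {ℓ : Sym2 V → ℝ}
    (hc : G.Connected) (hℓ : ∀ e ∈ G.edgeSet, 0 < ℓ e) {S : Set V}
    (hS : (G.induce S).Connected)
    (hp : (∀ a ∈ S, ∀ b ∈ S, a = b) ∨ ∃ σ : Equiv.Perm (G.induce S).Dart, PlaneMap (G.induce S) σ)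
    {Δ : ℝ} (hΔ : 0 < Δ) {N : ℕ} (hN : 0 < N) :
    ∃ c : Fin N × Fin N × Fin N → V → V,
      (∀ ω, ∀ u ∈ S, ∀ v ∈ S, c ω u = c ω v → pathDist G ℓ u v ≤ Δ) ∧
      ∀ u ∈ S, ∀ v ∈ S, G.Adj u v → ({ω | c ω u ≠ c ω v}.ncard : ℝ) ≤
        3 * (N : ℝ) ^ 3 * (ℓ s(u, v) / (Δ / 52) + 1 / N) := by
  classical
  rcases hp with hp | ⟨σ, hσ⟩
  · refine ⟨fun _ v => v, fun ω u hu v hv h => ?_, fun u hu v hv huv => ?_⟩
    · have h1 : u = v := h
      subst h1
      have h2 := (pathDist_isMet hc hℓ).self u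
      rw [h2]
      exact hΔ.le
    · exact absurd (hp u hu v hv) huv.ne
  · have hSℓ : ∀ e ∈ (G.induce S).edgeSet, 0 < (fun e : Sym2 S => ℓ (e.map Subtype.val)) e := by
      intro e
      induction e using Sym2.ind with
      | _ a b =>
        intro he
        exact hℓ _ he
    have hle : ∀ x y : S, pathDist G ℓ x y ≤
        pathDist (G.induce S) (fun e => ℓ (e.map Subtype.val)) x y := by
      intro x y
      have hd := pathDist_isMet hc hℓ
      have h := pathDist_semi (G := G.induce S) (ℓ := fun e => ℓ (e.map Subtype.val))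
        (ρ := fun a b : S => pathDist G ℓ a b) (K := 1) hS one_pos (fun a => hd.self _)
        (fun a b c => hd.tri _ _ _) (fun u v huv => by
          rw [one_mul]
          exact pathDist_adj hℓ (show G.Adj u.1 v.1 from huv)) x y
      rwa [one_mul] at h
    obtain ⟨c, h1, h2⟩ := kpr S (G.induce S) (fun e => ℓ (e.map Subtype.val)) hS ⟨σ, hσ⟩ hSℓ
      (Δ / 52) N (by positivity) hN
    refine ⟨fun ω v => if h : v ∈ S then (c ω ⟨v, h⟩ : V) else v, ?_, ?_⟩
    · intro ω u hu v hv h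
      simp only [dif_pos hu, dif_pos hv] at h
      have h3 := h1 ω ⟨u, hu⟩ ⟨v, hv⟩ (Subtype.ext h)
      have h4 := hle ⟨u, hu⟩ ⟨v, hv⟩
      have h5 : 52 * (Δ / 52) = Δ := by ring
      rw [h5] at h3
      exact h4.trans h3
    · intro u hu v hv huv
      have h3 := h2 ⟨u, hu⟩ ⟨v, hv⟩ huv
      have e : {ω | (if h : u ∈ S then (c ω ⟨u, h⟩ : V) else u) ≠
          (if h : v ∈ S then (c ω ⟨v, h⟩ : V) else v)} =
          {ω | c ω ⟨u, hu⟩ ≠ c ω ⟨v, hv⟩} := by
        ext ω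
        simp only [Set.mem_ofPred_eq, dif_pos hu, dif_pos hv, ne_eq, Subtype.ext_iff]
      rw [e]
      exact h3

/-- all components of `G - X` at once, over the same probability space -/
theorem cuts_of (kpr : RowKPR) {V : Type} [Finite V] {G : SimpleGraph V} {ℓ : Sym2 V → ℝ}
    (hc : G.Connected) (hℓ : ∀ e ∈ G.edgeSet, 0 < ℓ e) {X : Set V}
    (hp : ∀ u ∉ X, (∀ a ∈ compSet G X u, ∀ b ∈ compSet G X u, a = b) ∨
      ∃ σ : Equiv.Perm (G.induce (compSet G X u)).Dart, PlaneMap (G.induce (compSet G X u)) σ)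
    {Δ ε : ℝ} (hΔ : 0 < Δ) (hε : 0 < ε) :
    ∃ (Ω : Type) (_ : Fintype Ω) (_ : Nonempty Ω) (c : Ω → V → V),
      (∀ ω u v, u ∉ X → v ∉ X → ReachOff G X u v → c ω u = c ω v → pathDist G ℓ u v ≤ Δ) ∧
      ∀ u v, u ∉ X → v ∉ X → G.Adj u v → (({ω | c ω u ≠ c ω v}.ncard : ℕ) : ℝ) ≤
        (156 * ℓ s(u, v) / Δ + ε) * Fintype.card Ω := by
  classical
  obtain ⟨N, hN⟩ := exists_nat_gt (3 / ε)
  have hN0 : 0 < N := by
    have h1 : (0 : ℝ) < 3 / ε := by positivity
    exact_mod_cast h1.trans hN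
  have hN1 : (0 : ℝ) < N := by exact_mod_cast hN0
  have key : ∀ S : Set V, ∃ c : Fin N × Fin N × Fin N → V → V, (∃ u ∉ X, S = compSet G X u) →
      (∀ ω, ∀ u ∈ S, ∀ v ∈ S, c ω u = c ω v → pathDist G ℓ u v ≤ Δ) ∧
      ∀ u ∈ S, ∀ v ∈ S, G.Adj u v → ({ω | c ω u ≠ c ω v}.ncard : ℝ) ≤
        3 * (N : ℝ) ^ 3 * (ℓ s(u, v) / (Δ / 52) + 1 / N) := by
    intro S
    by_cases h : ∃ u ∉ X, S = compSet G X u
    · obtain ⟨u, hu, rfl⟩ := h
      obtain ⟨c, h1, h2⟩ := piece_cuts kpr hc hℓ (comp_connected hu) (hp u hu) hΔ hN0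
      exact ⟨c, fun _ => ⟨h1, h2⟩⟩
    · exact ⟨fun _ v => v, fun h' => absurd h' h⟩
  choose F hF using key
  have : Nonempty (Fin N × Fin N × Fin N) := ⟨⟨⟨0, hN0⟩, ⟨0, hN0⟩, ⟨0, hN0⟩⟩⟩
  have same : ∀ u v, ReachOff G X u v → compSet G X u = compSet G X v := by
    intro u v h
    ext z
    exact ⟨fun hz => h.symm.trans hz, fun hz => h.trans hz⟩
  refine ⟨Fin N × Fin N × Fin N, inferInstance, inferInstance,
    fun ω v => F (compSet G X v) ω v, ?_, ?_⟩
  · intro ω u v hu hv huv h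
    have h1 := (hF (compSet G X u) ⟨u, hu, rfl⟩).1 ω u (ReachOff.refl hu) v huv
    have h2 : F (compSet G X u) ω u = F (compSet G X v) ω v := h
    rw [← same u v huv] at h2
    exact h1 h2
  · intro u v hu hv huv
    have hr : ReachOff G X u v := ReachOff.adj hu hv huv
    have h1 := (hF (compSet G X u) ⟨u, hu, rfl⟩).2 u (ReachOff.refl hu) v hr huv
    have e : {ω | F (compSet G X u) ω u ≠ F (compSet G X v) ω v} =
        {ω | F (compSet G X u) ω u ≠ F (compSet G X u) ω v} := by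
      rw [← same u v hr]
    have hcard : (Fintype.card (Fin N × Fin N × Fin N) : ℝ) = (N : ℝ) ^ 3 := by
      simp only [Fintype.card_prod, Fintype.card_fin]
      push_cast
      ring
    rw [hcard]
    show (({ω | F (compSet G X u) ω u ≠ F (compSet G X v) ω v}.ncard : ℕ) : ℝ) ≤ _
    rw [e]
    refine h1.trans ?_
    have h3 : 3 / (N : ℝ) ≤ ε := by
      rw [div_le_iff₀ hN1]
      rw [div_lt_iff₀ hε] at hN
      linarith
    have h4 : 3 * (N : ℝ) ^ 3 * (ℓ s(u, v) / (Δ / 52) + 1 / N) =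
        (156 * ℓ s(u, v) / Δ + 3 / N) * (N : ℝ) ^ 3 := by
      field_simp
      ring
    rw [h4]
    exact mul_le_mul_of_nonneg_right (by linarith) (by positivity)

end Vale.Agent.P235.ST.H825
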